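/-!
# Row 264 (S0402): blueprint (owner helper42)

`S0402 ⇐ Final.main`.  `U` is a manifold (Sm), `U ≅ D × Y` with `D` symmetric and `Y` rigid (Lie, JA, MT, Split).
`U` is in the class `Cls` (Init).  For `X` in `Cls`, cocompact, `dim > 0`, scaling at a boundary wall gives a Heisenberg
action with a retraction `ρ` whose image is again in `Cls` (Wall, Fol, GeoAlg, Model, Cell, Glob = `stA`); for
`X = D × Y` the image is `D' × Y` with `D'` symmetric (Beta).  Induction: `Y` is a point.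
Statements in the files are FROZEN (tell helper42 if one is false or too weak).  Owners may add files below
`R264/<Block>/` and import them from the block file.

## JA (pure algebra).  Notation: `𝔨 = ker ev`, `B` Killing form, `V₀ = range ev` (complex subspace), `𝔪 = 𝔨^⊥B`
(`L = 𝔨 ⊕ 𝔪` as `B < 0` on `𝔨`; `𝔨` is a subalgebra by `integ`, `[𝔨,𝔪] ⊆ 𝔪`), `J : L → 𝔪` with `ev (J a) = I • ev a`.
For `W = A + iB` with `ev A + I ev B = 0` ("`W ∈ 𝔮`") `Λ_W (ev a) = ev [a,A] + I ev [a,B]` is a well defined complex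
linear map on `V₀` (`integ` with `(a,0)` and `(a, J a)`), `Λ_{[W,W']} = ±[Λ_W, Λ_W']` (Jacobi).  If every `Λ_W` preserves
`Ξ` then the `ψ` of `kos Ξ` satisfies (b) `ψ^ℂ [𝔮,𝔮] = 0` (trace of a commutator), so (c) `ψ [𝔨, L] = 0`,
`ω(Ja,Jb) = ω(a,b)`, `ω(a,Jb) = ω(b,Ja)` for `ω(a,b) = ψ[a,b]`, and (d) `ω(a,Ja) ≥ 0`, `> 0` if `ev a ∈ Ξ \ 0`.
* ja1: let `𝔞 ≠ 0` be an abelian ideal (`hasTrivialRadical_iff_isKilling`, `hasTrivialRadical_iff_no_abelian_ideals`).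
  `B(𝔞, L) = 0`, so `𝔞 ⊆ 𝔪`.  `ψ` for `Ξ = V₀`: `h(a,b) = ω(a,Jb)` is an inner product on `𝔪`.  `ev 𝔞` is totally real
  (`ω(𝔞,𝔞) = 0`: if `ev b = I ev a`, `a,b ∈ 𝔞`, then `0 < ω(a,b) = 0`).  `φ = ψ_Ξ` for `Ξ = ev 𝔞 + I ev 𝔞`: all `Λ_W` preserve
  `Ξ`; for `K ∈ 𝔨`, `tr_ℂ(Λ_K|Ξ) = - tr_ℝ(ad K|𝔞)` is real and equals `I φ K`, so `φ 𝔨 = 0`.  Take `v ∈ 𝔪` with
  `ω(v,·) = φ` (`ω` nondegenerate on `𝔪`).  `ω([K,v],x) = ψ[K,[v,x]] - φ[K,x] = 0`, so `[𝔨,v] ⊆ 𝔪 ∩ rad ω = 0`.  With an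
  `h`-orthonormal basis `e_i, f_i = J e_i` of `𝔪`: `tr ad v = Σ ω([v,e_i],f_i) + ω(e_i,[v,f_i]) = Σ φ[e_i, J e_i] > 0`
  (all terms `≥ 0`, not all zero: `a ↦ φ[a,Ja]` is a semipositive `J`-invariant quadratic form, positive on `𝔞`).
  A basis free form: `tr ad v = (1/2) tr_h (a ↦ φ[a,Ja])`.  Contradiction with unimodularity.
* ja2: `ψ = B(Z₀,·)`, `𝔨 = centraliser of Z₀ ∋ Z₀`, `T = ad Z₀|𝔪` invertible, commutes with `J`; `h(a,b) = B(Ta,Jb)`;
  `J` is `B`-skew, `B(a,b) = h(J T⁻¹ a, b)`, so `J T⁻¹` is `h`-symmetric: `𝔪 = ⊕ 𝔪_λ`, `T = λ J` on `𝔪_λ`, `λ ≠ 0` real,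
  `B = h/λ` there.  Complexify (`L^ℂ = ℂ ⊗ L` or pairs): `𝔪' = {a - iJa}`, `𝔪'' = conj`, `𝔮 = 𝔨^ℂ ⊕ 𝔪''` subalgebra,
  `ad Z₀ = iλ` on `𝔪'_λ`, `-iλ` on `𝔪''_λ`; Hermitian form `⟨y,y'⟩ = B(y, conj y')`, adjoint of `ad Ē` is `-ad E`, definite
  of sign `λ` on `𝔪'_λ, 𝔪''_λ`, negative on `𝔨^ℂ`, all pieces orthogonal.  For `E = a - iJa`:
  `2 ψ[a,Ja] = tr(ad [E,Ē] | 𝔪') = tr(P adE (1-P) adĒ P)`, `P` projection on `𝔪'` along `𝔮`.  If `λ < 0` is the least
  eigenvalue and `a ∈ 𝔪_λ \ 0`: for `y ∈ 𝔪'_μ`, `(1-P)[Ē,y]` lies in `𝔨^ℂ` (`μ = λ`) or in `𝔪''_{λ-μ}` with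
  `λ ≤ λ-μ < 0`, so it vanishes unless `μ < 0`, and the diagonal entries are `≤ 0`: contradiction with `ψ[a,Ja] > 0`.  So all
  `λ > 0`, `B > 0` on `𝔪`.  `[𝔪',𝔪'] = 0`: else `𝔫 = {E ∈ 𝔪'_λ | [E,𝔪'] = 0}` has a nonzero `𝔨`-invariant orthocomplement in
  `𝔪'_λ`; maximise `f(E) = B([Ē,E],[Ē,E])` on its unit sphere (`df(F) = 4 Re⟨[[E,Ē],E],F⟩`): `[[E,Ē],E] = cE`, `c > 0`
  (`f > 0` since `ψ[a,Ja] > 0`), an `sl₂`-triple.  For `F ∈ 𝔪'_μ` with `[E,F] ≠ 0` let `G = (ad E)^k F ≠ 0`, `k ≥ 1` maximal.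
  On `ker ad E ∩ 𝔪'_{μ+kλ}` the operator `H = ad[E,Ē]` is Hermitian with eigenvalues `≥ 0`
  (`IsSl2Triple.HasPrimitiveVectorWith.exists_nat`), and `⟨HG,G⟩ = -⟨[Ē,G],[Ē,G]⟩ ≤ 0` (`[Ē,G]` has positive degree, lies in
  `𝔪'`), so `[Ē,G] = 0`, `⟨G,G⟩ = -⟨G',[Ē,G]⟩ = 0`.  Then `[𝔪',𝔪''] ⊆ 𝔨^ℂ` (orthogonality), `J̃ = 0 ⊕ J` is a derivation,
  `= ad Z'` (`LieDerivation.IsKilling.exists_eq_ad`), `Z = -Z'`.
* ja3: `𝔨 = ker ad Z`, `𝔪 = range ad Z`, `J = -ad Z` on `𝔪`; grading of `L^ℂ` by `ad Z` (eigenvalues `0, ±i`):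
  `2B(a,a) = tr(adE adĒ) = tr_{𝔪'} + tr_{𝔨} = 2 tr(ad[E,Ē]|𝔪') = 4ψ[a,Ja]`.
* jab1: generalised eigenspaces of `ad δ` on `L^ℂ` (`LieModule.genWeightSpace`/`Module.End.maxGenEigenspace`,
  `[g^λ,g^μ] ⊆ g^{λ+μ}`, `B(g^λ,g^μ) = 0` unless `λ+μ = 0`).  Last clause: `𝔳^ℂ` has the same property; induct upwards on
  `Re λ < 0`: `[N,g^λ] ⊆ g^{λ-1 or λ-2} ⊆ 𝔳^ℂ`, so `[δ,g^λ] = g^λ ⊆ 𝔳^ℂ`.
* jab2: `θ = 1` on `𝔨`, `-1` on `𝔪` is an automorphism (`θ = 1 + 2 (ad Z)²`), `B(θN,N) < 0`, so `L = 𝔭 ⊕ θ𝔲`.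
  `Z = P + θN₀`, `Z' = Z - N₀ - θN₀ ∈ 𝔭 ∩ 𝔨`.  For `a ∈ 𝔪`, `a = P₁ + θN₁`, `a' = a - θN₁ + N₁ ∈ 𝔭 ∩ 𝔪`,
  `ev a' = ev a + 2 ev N₁`; `[N₀,a'] ∈ 𝔲`, `[θN₀,a'] = -θ[N₀,a']` has `ev = ev [N₀,a']`.

## MT.  Put a norm and Lebesgue measure `λ` on `L` (basis).  `N_x(a) = sup {‖Dv X f y (ι a y)‖ : y ∈ X, cd X x y < ε,
f holomorphic, |f| ≤ 1}` (`ε` from `CM.cpt`) is a norm on `L` (`unif_lip` on the compact ball; `ident`), lower semicontinuous
in `(x,a)`, locally uniformly equivalent to `‖·‖`, and `N_{g x}(Ad g a) = N_x(a)` for automorphisms `g`.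
`v(x) = λ{N_x ≤ 1}`; `v(g x) = |det Ad g| v(x)`; for `g = fl (ι a) 1`, `det = exp(-tr ad a)` (`LieRep.Ad`), `Ad g a = a`.
`Ω` = `2n`-dimensional Hausdorff measure of the metric space `(X, cd)` (locally bi-Lipschitz to a chart: `norm_le_cd`,
`cd_le_norm`; finite on compacts, positive on opens, invariant under automorphisms).  `μ = Ω(dx) λ(da) / v(x)` on `X × L` is
`Γ`-invariant; `κ = 1{N_x(a) ≤ 1}`; `ρ(x) = 1_K(x) / #{γ | γ x ∈ K}`, `Σ_γ ρ(γ x) = 1`.  `j(x,a) = (fl (ι a) 1 x, -a)` is an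
involution commuting with `Γ`, preserving `κ` and `Ω ⊗ λ` (Fubini; measurable by `exp_cont`).  Mass transport:
`∫ κ ρ dμ = ∫ κ ρ∘j dμ` (insert `Σ_γ`, Tonelli), `= ∫ κ ρ exp(± tr ad a) dμ = ∫ κ ρ cosh(tr ad a) dμ` (`a ↦ -a`).  The
common value `∫ ρ dΩ` is finite and positive, so `tr ad a = 0` a.e. on a ball `{N_x ≤ 1}`, hence `tr ad = 0`.

## Split.  `x₀ ∈ X`, `Z = Z(x₀)`, `φ θ = fl (ι Z) θ`.  On `L`: `adZ (adZ² + 1) = 0`.  Choose `a_j ∈ range ad Z` (`j < r`) with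
`ev a_j` a complex basis of `V₀`; `∂_j = (ι a_j - I ι [Z,a_j]) / 2` (tangent fields, `∂_j x₀ = ι a_j x₀ · ...`; check
the sign: `br Z ∂_j = -I ∂_j`, weight `-1`: `Dφ_θ ∂_j = e^{iθ} ∂_j ∘ φ_θ` by `push_fl_eig`), they span `ι L (y)` over `ℂ` for `y` near `x₀`
(constant rank).  Cramer: `ι Z = Σ c_j ∂_j` near `x₀`, `c_j x₀ = 0`, so `DZ (Tan) ⊆ V₀`, `DZ = I` on `V₀`, `Dφ_{2π} = id`,
`φ_{2π} = id` (`cartan`).  Linearise at `x₀` (average a chart: `A = (1/2π)∫ e^{-θ DZ} Ψ φ_θ`): near `x₀`, `θ ↦ φ_θ z` extends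
holomorphically to the closed disc with values in `X`.  So for every bounded holomorphic `f` on `X` the negative Fourier
coefficients of `θ ↦ f(φ_θ z)` vanish (`an_integral`, `ident`) and the Cauchy integral `f̃(ζ,z)` is holomorphic on `Δ × X`,
bounded by `sup |f|`, continuous up to `|ζ| = 1`; `g = ĩd`.  `S = {z | g(Δ × nbhd of z) ⊆ X}` is clopen: for `z,z' ∈ S`,
`f(g(ζ,z)) = f̃(ζ,z)` gives `cd (g(ζ,z)) (g(ζ,z')) ≤ cd z z'`, `CM.lim_mem`, then the local equation `y = h(Ψ y)` of `X` and the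
identity theorem near each point of the closed disc `× {z}`, tube lemma.  (Alternative: `taut` for `ζ ↦ g(ζ,z_j)`.)
`g(ζ, g(ζ',z)) = g(ζζ',z)`, `g₀ = g(0,·)` idempotent, `Y = g₀ '' X` (`retract`, `CM.retract`), `g₀ φ_θ = g₀`.
`u = der W g₀` for `W` of weight `k`: `u(φ_θ z) = e^{ikθ} u z`, so `u(g(ζ,z)) = ζ^k u z`: `u = 0` for `W = ∂_j`, hence for all
`W ∈ ι L` (near `x₀`, `ident`).  At `y ∈ Y`, `Tan` has only the weights `0, 1` (`D g(ζ,·) y` is holomorphic in `ζ`; or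
directly) so fields of weight `0` and `+1` vanish on `Y` and `∂_j y` is a basis of `ι L (y)`.  `τ z` = coordinates of
`∂_ζ g(0,z)` in the basis `∂_j (g₀ z)`.  `Θ = (τ, g₀)` has `Θ(g(ζ,z)) = (ζ τ z, g₀ z)`, is a local biholomorphism at points of `Y`,
so injective and immersive everywhere (scale by small `ζ`, identity theorem in `ζ`, `ζ → 1`).  Homogeneity gives
`∂_j τ_k = δ_jk`, `Z τ = Iτ`; for `a ∈ L`, `der (ι a) τ = W̃_a(τ)` with `W̃_a` a polynomial map of degree `≤ 2` independent of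
`y` (weights; coefficients are read off from brackets with `∂_j`, which are constant combinations of the `∂`).  The fibres
`D_y = τ(g₀⁻¹ y)` are star-shaped, open, contain `0`; `D_y ∩ D_y'` is clopen in `D_y` (`exp_strict`/`exp_open`, `ode_unique`), so
`D_y = D`.  `Sym r D` (`CM.fst`, fields `W̃_a`, `Car` at other points), automorphisms preserve `ι L` so map fibres to fibres
(`der W (g₀ ∘ γ) = 0`), `Coc Y`; `Rigid Y` by maximality (`gen_prod_mk`, `Gen.pushf`).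

## Beta 1 (`HAct.sd`).  `t ↦ T (tc) (ta)` and `Dl` are continuous one-parameter groups (`IsGrp.gen`); generators `N(c,a)`, `δ`;
`N` is `ℝ`-linear (`T(t(c+c'), t(a+a')) = T(tc,ta) T(tc',ta') T(-t²κ,0)`, differentiate), `push (Dl s) N(c,a) = N(e^{2s}c, e^s a)`,
`push (T 0 a) N(0,a') = N(2κ a a', a')` give `br δ N(0,a) = -N(0,a)`, `br δ N(c,0) = -2N(c,0)`, `br N(0,a) N(0,a') = ∓2κ N(1,0)`,
`N(1,0) ≠ 0` central in `𝔫`.  `𝒩 = {N(0,a)} ∪ {N(c,0)}`.  Evaluation at any `x` is injective on `𝔰 = 𝔫 + ℝδ`: if `W x = 0`,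
`ad W` is skew (`LieRep.iso`), so has no nonzero real eigenvalue and `ad W² a = 0 → ad W a = 0`; test on `N(1,0)`,
`N(0,a')`, `δ`.  The values lie in `ker Dρ`, of complex dimension `≤ n - k = m + 1` near a point of `ρ '' X` (`retract`), so
span `≤ m+1` complex dimensions everywhere (`rank_le`); real dimension `2m+2` gives `cx`, `2m+1 > 2m` gives `dep`.
## Beta 2.  `gen_prod` splits every field; the `Y`-components of `𝔰` form a `CxVal` subspace, `= 0`.  So the flows fix `y`,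
`(ρ (z,y)).2 = y` on `Ω`, hence everywhere; `ρ_y z = (ρ (z,y)).1`, `ρ' = ρ_{y₀}`; `f (z,y) = (ρ' z, y)`, `g (z,y) = ρ (z,y)`.
## Beta 3.  `L` full (`exists_lieRep`), `jalg`, `NegK` (`comm_zero`, `iso`, `killing_neg_of_skew`), `Car` from `circ` and
`Gen.eq_zero`.  `v_W = der W ρ`; `der N v_W = v_{[N,W]}` for `N ∈ 𝔰` (`der_br`), so `𝔳 = {W | v_W = 0 on D}` satisfies the
hypothesis of `jab1` (by `hdep`).  For `P ∈ 𝔭`: `v_P` is killed by `𝔰`, `v_P ∘ ρ = v_P`, `ρ ∘ fl P t` is the flow of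
`indicator D' v_P` on `D' = ρ '' D` (`gen_of_curves`), `ρ`-related to `P` (`br_related`); `jab2` with `p = Dv D ρ x`.

## Sm.  `Sing = {x ∈ U | U is no manifold near x}` is closed and invariant under automorphisms.  `𝓕` = holomorphic `f` on `U`,
`|f| ≤ 1`, `f = 0` on `Sing`.  (1) Let `V₁, …` be the irreducible components of `V` (minimal primes of the vanishing ideal) and
`g_i` from `gen_smooth` times a polynomial vanishing on the other components: `Sing ⊆ {g_i = 0}` for all `i`; `g_i ≢ 0` on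
`U` for a component meeting `U` (density (2)).  (2) Noether normalisation (`exists_integral_inj_algHom_of_quotient`/
`exists_finite_inj_algHom_of_fg`): `p : V_i → ℂ^d` finite, given by polynomials `y_1..y_d`; embed `x ↦ (y(x), x)` to use
`gen_smooth` with `B` = the `y`-variables: off `{h(y) = 0}` `V_i` is a finite covering.  Density of `{h(y) ≠ 0}` in `V_i`: for
`s ∈ V_i` and a polynomial `u` with `u(s) = 0` separating... use the minimal polynomial (monic over `ℂ[y]`, integrally closed) of a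
function `u` on `V_i` with `u(s) = 0`, `u ≠ 0` on the rest of the fibre: for `w → p(s)` it has a root near `0`, and every root
is a value `u(x)`, `p x = w` (lying over); fibres are bounded.  (3) Equicontinuity at `s ∈ Sing`: small ball `B ∋ p(s)` and
neighbourhood `N ⊆ O` of `s` with `p : N ∩ V_i ∩ p⁻¹B → B` proper and fibre `{s}` over `p(s)`; the coefficients of
`Π (λ - f(x_j(w)))` (`x_j(w)` the points of `N` over `w ∈ B \ {h = 0}`, their number is locally constant) are bounded holomorphic,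
extend (`removal`, `small_zero`), vanish at `p(s)`; Schwarz lemma and a root bound give `sup_𝓕 |f| ≤ 1/2` near `s`.
(4) `{x | ∃ nbhd, c < 1, ∀ f ∈ 𝓕, |f| ≤ c}` is open, contains `Sing`, and is closed at manifold points (`R245.harnack`), so it is `U`
if `Sing ≠ ∅`; compactness of `K` and invariance give `sup_U |f| ≤ c* < 1` for all `f ∈ 𝓕`, so `𝓕 = 0`, against (1).
(5) the local dimension is locally constant.

## Init.  `𝔓 = I(U)` is prime (`ident`), `V' = Z(𝔓)`, `U = O ∩ V'`; `B`, `g` from `exists_prime_basis`, `gen_smooth`; `h ≠ 0` in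
`ℂ[x_B]`, `h ∈ 𝔓 + (g)`; `card B = n` (`Mfd.dim_eq` at a point of `U` with `g ≠ 0`).  `π = x_B`.  `M = rc '' (V' ∩ {g ≠ 0})` is a `GrA`
over a countable field containing all coefficients (`alg`: complex algebraicity of `z_j` over `K(z_B)` gives real algebraicity,
via `conj`).  A real polynomial vanishing on an open piece of `M` vanishes on `rc '' V'` (`exists_polar`; `f(Γ τ, conj Γ τ')`;
`𝔓` prime and the first part of `gen_smooth`: a complex polynomial vanishing on an open piece of `V'` lies in `𝔓`).  `f` = product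
of the `P i j`, `Q i j` not vanishing on `M`; `R₁` from `GrA.hyp`, `R = R₁ * R_C` with `{R_C = 0} = C` (`Thin.exists_poly`), `C = C₁ ∪ {h=0}`, `C₁` from
`GrA.over` with `P q` = product of the `P i j`, `Q i j` not vanishing at `q`.  Over `q` with `h q ≠ 0` there are finitely many points
of `V' ∩ closure U`, tube lemma.  `PP`: signs are constant on each branch.  `LT`: on a `half_box` `W` each branch `Γ_i` has
`Γ_i(W±) ⊆ U` or disjoint, `Γ_i(W ∩ H)` likewise (signs constant along `H`); `U` open in `V'`.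

## Cell-alg.  `B` a basis of `q`, `|B| = D - 2`, remaining coordinates `a, b`.  View `R ∈ 𝕜[x_B][a,b]`; two independent rational
directions `v₀, v₁` in the `(a,b)`-plane where the top form does not vanish: in linear coordinates `(α, β)`, `β(v) = 0`,
`R = lc(x_B) α^d + …`.  `R̃` = product of the distinct irreducible factors of `R` of positive `α`-degree (the others divide `lc`).
`Δ(β, x_B) ≠ 0`: product of a nonzero element of `(R̃, ∂_α R̃) ∩ 𝕜[β,x_B]` (squarefree, char 0) and a polynomial vanishing on the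
projection of `C` (`proj_alg`, `exists_poly_of_dim` after the linear change).  `hyp_generic` for `Δ` at the projection of `q` gives
`y = Δ₀`, `∂_β Δ₀ (q) ≠ 0`.  `IS {q}` is a minimal prime of `(R, y)` (a smaller prime has `x_B` as basis); `P` contains `lc`, an
element of the other minimal primes, and the `P` of `hyp_generic`.

## GeoAlg (`stDown`).  `M = ra '' G.Z` is a `GrA 𝕜₁` over `eB`.  `f = f_deg * f_C` (`f_C` vanishes on `C`, not at `p`) vanishes on no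
open piece of `M` (`Z` is a connected manifold, `ident_real`).  `R₁'` from `GrA.hyp`, `C₁'` from `GrA.over` for `R₁'`,
`C₁ = C₁' ∪ {h0 = 0}`, `R₁ = R₁' * R_C` with `{R_C = 0} = C₁` (`Thin.exists_poly`), so `{R₁ = 0} = {R₁' = 0}` near points off `C₁`.
`P q`: `1` if `¬ nd q` (then
`f_deg ∈ IS {q}`, third case); `f_deg f_C'` if `nd q`, `q ∉ C`; if `nd q`, `q ∈ C` then `tsx` gives `td 𝕜 q = 2n-2`, `cell_alg`
at `q`, `P q = f_deg * P`; for `z`: `trv` shows that not both `y_i ∘ b` are critical, `Geo.OK.cell`.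

## Fol.  `RR(z,ω)` polarisation of `R₀` (`RR(z, conj z) = R₀`, `RR(conj ω, conj z) = conj RR(z,ω)`).  Pick `i₀` with
`∂_{ω_{i₀}} RR (p₀, p̄₀) ≠ 0`, `G_b = ∂_{ω_b}RR / ∂_{ω_0}RR`.  The Levi form on `{v | ∂_z RR v = 0} ≅ ℂ^{ι \ i₀}` is Hermitian of rank `m`; take
`A` with an invertible principal `m × m` minor, `B` the rest.  Bordered `(m+1)`-minors, cleared of denominators, are real/imaginary
parts over `𝕜` vanishing at `p₀`, so divisible by `R₀`, so vanish on `𝓗 = {RR = 0}`.  `E(z,ω;c) = (RR(z,ω), G_A(z,ω) - c)` has invertible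
`(w,u)`-Jacobian at `p₀`: `z = Zf(ω,c,t)` parametrises `𝓗` near `(p₀,p̄₀)`; by the rank condition `φ_b(ω,c) = G_b(Zf(ω,c,t),ω)` does
not depend on `t`.  FOL: for `z₁ ∈ H` near `p₀`, the leaf `L(z₁) = {Zf(z̄₁, G_A(z₁,z̄₁), t)}` lies in `H`.  Characteristics: for fixed
`z`, the Segre hypersurface `ω₀ = f_z(ω')` solves `∂_b f = -φ_b(ω, -∂_A f)`; along the conjugate leaf `L*(z,ω₁)` (the same
construction with the roles exchanged; its tangent space is the null space `{V | V₀ + Σ G V = 0, V_a + Σ_b V_b ∂_{c_a}φ_b = 0}`)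
the pair `(ω, G_A(z,ω))` solves an ODE independent of `z`, so `L*(z,ω₁) = L*(z₁,ω₁)` for `z ∈ L(z₁,ω₁)` (ODE uniqueness on lines
`t₁ + s e`), hence `RR(z,ω) = 0` on `L × L*`, `L* = conj L`.  Slice: `c(s) ∈ H`, `t = t(p₀)`, `u = u(p₀) + a`,
`Re ϑ_p(c - p₀) = s₀`.  Polynomial equations `E₀ = RR(z, c̄)`, `E_a = ∂_{ω_a}RR(z,c̄) ∂_{ω_0}RR(c,c̄) - ∂_{ω_0}RR(z,c̄) ∂_{ω_a}RR(c,c̄)`,
`g₀(z) = ∂_{ω_0}RR(z,p̄₀) ∂_{z_0}RR(z,p̄₀) det ∂_{(w,u)}E`.  `Zs` = component of `p₀` in `{E(·,p₀) = 0, g₀ ≠ 0}`; for `z ∈ Zs` the implicit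
function theorem gives `Z_z(s,t)` real analytic, holomorphic in `t`, `b z = Z_z(0,·)`; `R₀ ∘ Z_z ≡ 0` as a germ is clopen on `Zs`.
`μ = ∂_{ω_0}RR(Z,c̄)/∂_{ω_0}RR(c,c̄)`, `ϑ(s,t) = c₀ ∂_zRR(Z,c̄)/μ` on `(w,u)`; differentiating `E₀ = 0`:
`ϑ(s,t)(∂_s Z ṡ) = θ_s(ṡ) := -c₀ ∂_ωRR(c,c̄) conj(∂_s c ṡ)`, real, independent of `t`, for `c₀ = I · real`; normalise
`θ_0 = ds₀` and `Im ϑ_p = positive multiple of dR₀`.  `ξ a = ∂_a Z_u`, `η₀(a,b) = ϑ(∂_a∂_b Z)/2`, `k(a,b) = -(∂_a θ)(b)`, `κ = skew k`,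
`η = η₀ + sym k / 2`, `β a u = -(∂_a ϑ)(lift u)` (`lift u` has `ϑ = 0`).  All jets are given by rational formulas in `z` (define them
by these formulas: `∂_sZ = -(∂_zE)⁻¹ ∂_sE` etc.) so they are holomorphic along branches.  `κ(a,b) = c₀ I Im Lev(b̂,â)` is nondegenerate;
`surj`: directions `a' = I a''` give `δc̄ = 0`.  At `nd z`, `(s,t) ↦ (Re w, u, t)` is a local diffeomorphism, `r z q = Im w(q) - Im w(s(q),t)`.
`𝔓 = I(Zs)` prime, `Eqs = 𝔓`, `h0 ∈ 𝔓 + (g₀)` (`gen_smooth`, `jac_alg` in `Frac(ℂ[z]/𝔓)`), `G.p = b p₀ τ` with `h0 τ ≠ 0`.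
`𝕜₀ = adj 𝕜 (rc t(p₀))`, `𝕜₁ = adj 𝕜 (rc p₀)`; `td 𝕜₀ (slice coordinates) = 2m+1` (`td_tower`, `td_le_card`).  `alg`: `jac_alg`.
`tsx`: at `nd z` the real system `R₀(c) = 0, E(z,c) = 0` in the slice point `c` is nondegenerate, so `p₀` is algebraic over `𝕜₀(z)`.
`trv`: `tangent_surj` over `𝕜₀` at `(c,z) = (p₀,z)` with `S` = `2m+1` independent slice coordinates.

## Model 1 (`pos`).  If not, `H(u₀) < 0` (`split`).  `r̃ = r ∘ ico z`, `dr̃_m = Re ℓ_m`; discs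
`γ_m(ζ) = m + (a(m) ζ + ζ² Sq u₀ u₀, ζ u₀, 0)`, `ℓ_m(a,u₀,0) = 0`.  `g(m,ζ) = r̃(γ_m ζ) - r̃ m` is `C²`, vanishes to first order at
`ζ = 0`, has positive definite Hessian at `(m₀,0)` (`rexp`), so `g ≥ c|ζ|²` for `|ζ| ≤ ρ`, `m` near `m₀`.  For `m' ∈ {r̃ = 0}` the discs
`γ_{m'+iδ}` lie in `{r̃ > 0}`, their boundaries in a compact part; the maximum principle bounds `cd` between the centres, so
`σ(ico(m'+iδ))` accumulates in `X` (`CM.cpt`).  So every point of `H` near `z` is `π x` with `x ∉ Reg` or `π x ∈ S`: contradiction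
with `Small.not_hyp` for the small set `Regᶜ ∪ (Reg ∩ π⁻¹S)`.
## Model 2 (`prop`).  `trap` for `g j '' (X ∩ O)`, `barrier` (scale invariant), `sect_harnack`, `montel`, `scale_in`; last clause:
translate a boundary point of the model to `(0,0,τ)` by `tr`, `Im (w' - Sq u' u') ≥ 0` vanishes there, `sect_zero`, `ident`.
## Model 3 (`lm`).  `ψ = lim g' j ∘ σ ∘ ico z ∘ sc λ_j` on `MT` (`scale_in`, `montel`, `taut`).  For `y = ψ m` apply `prop` on a small
neighbourhood with the moving points `ψ_j m`; it gives `Φ ∘ ψ = id` near `m`, `ψ ∘ Φ = id` near `y`; `Φ = limUnder`.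
## Model 4 (`dx`).  `Sub.chart`: `N ≅ ball × ball`, `N₊ = {r₁ > 0}`.  On `𝔸^ℂ = 𝔸 × 𝔸` (pairs `a + i a'`): `Λ_t = ker ξ_t^ℂ`,
`Hm(v) = I κ^ℂ(v̄,v) = -2κ(a,a')`, `≥ 0` on `Λ_t` for `t` on the closed `+` side (`Pos`, `surj`, continuity).  Fix `t₁` on the `+` side,
`Λ' = conj Λ_{t₁}` (`Hm ≤ -c|·|²`, Lagrangian), `ξ_t^ℂ : Λ' → 𝔸` is invertible near `t₀`, `ℓ(u,t)` the inverse, `w̃ = w - η^ℂ(ℓ,ℓ)`.
From `rel`: `η^ℂ(x,λ) = -κ^ℂ(x,λ)/2` for `λ ∈ Λ_t`; for `u = ξ b`, `b = ℓ + λ`: `Im w̃ - (Im w - Q u) = q_t(b) := -Im κ^ℂ(ℓ,b)`,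
`2q = Hm λ - Hm ℓ ≥ c|ℓ|²`, polar form `q(b,b') = -Im κ^ℂ(ℓ b, b')`.  So on `N₊`: `Im w̃ > q ≥ c|ℓ|²/2`.  `J` = fibre Jacobian of
`(w̃, ℓ)` (in a basis of `Λ'`) is holomorphic and `≠ 0` on `N₊` (`MOD.loc`).  On fibre balls: `|∂w̃| ≤ C|w̃+I|`, `|∂ℓ| ≤ C|w̃+I|^{1/2}`
(`im_pos_est`), so `J²/(w̃+I)^{m+2}` is bounded.  At a degenerate `t'`, `0 ≠ b₀ ∈ ker ξ_{t'}`: `q_t(b₀) → 0`, Cauchy–Schwarz
`|Im κ^ℂ(ℓ,b₀)|² ≤ q(b) q(b₀)`, `fderiv_le_of_im`, and `ℓ ↦ κ^ℂ(ℓ,b₀)` is a nonzero functional on `Λ'`: the quotient tends to `0`.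
`bdry_unique` (in the chart, e.g. on the slice of fibre centres) gives a contradiction.  (`m = 0`: everything is nondegenerate.)

## Cell 1: see the docstring.  Cell 2.  Coordinates: `x ↦ (r x, ℓ x)`, `ℓ` projection along `v`; `W` = points `Γ(s, ξ)` with `|s| < δ`,
`ξ` in a half-box base (for `y`), vertical lines are `ℝ v`-lines, `r` monotone along them.  `Σ = W ∩ {y = 0, r = 0} = N`.  No zeros of `R`
in the slabs `|r| ≥ δ/2`.  Top sections `σ_k` over the top slab (`PP.sections`).  `U_k` = points `x ∈ Reg` over `W` such that the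
vertical segment from `π x` up into the slab lifts continuously to `Reg` starting at `x` and ending on `σ_k`.  `π` is injective on
`U_k`; `U_k` is open (tube lemma) and closed in `Reg ∩ π⁻¹(W \ {y = 0, r ≤ 0})` (cover the segment by boxes of `PP`/`LT`; each box has
finitely many sections over the box, its part above, or its part below the wall; lifts which cross a wall lie in a full section).
Symmetric sets `D_l` for the bottom slab.  So each local section over a connected set is inside or outside `U_k`, and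
`π(U_k)` is an upper set; `{ξ | Γ((0,δ),ξ) ⊆ π U_k}` is clopen in each side `{±y > 0}` of the base, as is extendability across
`H`.  `𝒟` = the `k` with `π U_k ⊇ W₊` and walled, `σ = (π|U_k)⁻¹`.  Given `y`: chart at `y`, direction `e` with
`d(y ∘ P ∘ h) e > 0`, a generic line (`Small.avoid` for all `(g j ∘ h)⁻¹(Regᶜ ∪ π⁻¹Σ)`) from a model point `y'` on one side to
`y''` on the other.  For large `j`, `y ∘ π ∘ g j` is monotone along it, crossing `0` once, at `r ≠ 0`.  If `r < 0` there,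
`g j y' ∈ D_l`, so the datum of `y'` extends across `H`: against its wall.  So `g j y', g j y'' ∈ U_k`, `k` determined by `y'`'s datum.
`π g j y'' → P y'' ∈ H`; `LT` at `P y''`: if a full section is met frequently `g j y''` converges in `X`, against `div`; so a walled
one-sided section is in `U_k` (it is on the upper side because `π U_k` is an upper set).

## Glob 1.  `clopen_ind` on `Om`; `tri`; good: `loc_good` + pigeonhole + `clo`; cell: `loc_cell` + `clo`; degenerate: half box `V` for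
`r₁`, model points near `y` lie over `{r₁ ≠ 0}`, a side of `N` is connected and consists of good points, so of model points; `dx`.
## Glob 2.  For `y ∈ Om` with coordinate `m(y)`, `ψ_y` from `lm` at `P y`.  KEY: if `y' = ψ_y m'`, then `ψ_{y'} = ψ_y` on the fibre of the
model over `m'.t` (they agree near `m'` by `MOD.loc`/`MOD.unique`, identity theorem on the connected fibre).
`T c a y = ψ_y (tr c a m(y))`, `Dl s y = ψ_y (sc e^s m(y))`, `ρ y = ψ_y (I,0,t)`; extend by `removal_map`; identities by density.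
## Glob 3.  `retract`; `fibre`, `loc_good`/`loc_cell`+`clo`, `lm` with a common `T = W₁` (ball or half box, disjoint from `C₁`): sections
`s τ = ψ (I,0,τ)` for the followed data; `PP` by density of `ρ(Om)`; dimension by `Mfd.dim_eq`/`Sec.sub` and `PP`; `LT`: one-sided
sections from `PP.sections`, keep the walled ones; a non-walled one coincides with a full section (`Sec.nhds`, `Sec.eqOn`).
-/
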